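import Vale.Agent.Lib.P322.Bridge

namespace Vale.Agent.Results.P322.A_main

open Vale.Agent.Lib.P322

/-- The Courtade-Kumar inequality holds for every Boolean function, balanced or not, in every
dimension, at every crossover probability `3/10 ≤ ε ≤ 1/2` (noise correlation `ρ ≤ 2/5`). -/
theorem result (n : ℕ) (f : (Fin n → Bool) → Bool) (ε : ℝ) (h0 : 3 / 10 ≤ ε) (h1 : ε ≤ 1 / 2) :
    mutualInfo f ε ≤ 1 - h2 ε :=
  ck_of_ge f h0 h1

end Vale.Agent.Results.P322.A_main
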